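import Vale.Agent.P291.Fin.Ker
import Vale.Agent.P291.Main

/-!
# Hikita's statement for all quivers, all dimension vectors and all flavour tori
-/

namespace Vale.Agent.Results.P291.Hikita

open Vale.Agent.P291.Fin

/-- Let `Q` be any finite quiver (loops and multiple arrows allowed) with any gauge dimensions and
any framing dimensions, let the flavour torus `F` of rank `n` act on the summands of `N` through
any characters `χ`, and let `ν` be generic. Then `H^*_F(X)` and the coordinate ring of the
scheme-theoretic fixed locus of `Y` are isomorphic, compatibly with `φ_H` and `φ_C`. -/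
theorem result {I E : Type} [Fintype I] [DecidableEq I] [Fintype E] (Q : QData I E) {n : ℕ}
    (χ : Q.Fl → Fin n → ℤ) (ν : I → ℤ) (hν : Q.Generic ν) :
    ∃ e : Q.HX (Q.wt χ) ≃+* Q.CY (Q.wt χ) ν,
      ∀ r, e (Q.phiH (Q.wt χ) r) = Q.phiC (Q.wt χ) ν r :=
  main Q (Q.wt χ) ν hν fun f =>
    Set.ext_iff.mp (Vale.Agent.P291.JC_eq_JD (core Q (Q.hat (Q.wt χ)))
      (nonzeroLoops_hat Q (Q.wt χ))) f

end Vale.Agent.Results.P291.Hikita
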