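import Vale.Agent.P291.Hik.Points
import Vale.Agent.P291.HX.HPBlk
import Vale.Agent.P291.HX.HX8Blk

/-!
# Hikita's conjecture for all quivers, dimension vectors, flavour tori and regular characters
-/

namespace Vale.Agent.Results.P291.HikitaConjecture

open Vale.Agent.P291.Hik

/-- Let `Q` be any finite quiver (loops and multiple arrows allowed) with any gauge dimensions and
any framing dimensions, let the flavour torus `F` of rank `n` act on the summands of `N` through
any characters `χ`, and let `ν` be regular. Then `H^*_F(X)` and the coordinate ring of the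
scheme-theoretic fixed locus of `Y` are isomorphic, compatibly with `φ_H` and `φ_C`. -/
theorem result {I E : Type} [Fintype I] [DecidableEq I] [Fintype E] (Q : QData I E) {n : ℕ}
    (χ : Q.Fl → Fin n → ℤ) (ν : I → ℤ) (hν : Q.Regular ν) : Q.Hikita (Q.wt χ) ν :=
  hikita_of_regular (Q.wt χ) ν hν
    (Vale.Agent.P291.HX.JC_sub_JHP (core Q (Q.hat (Q.wt χ))))
    (Vale.Agent.P291.HX.S3.JHP_sub_JD (core Q (Q.hat (Q.wt χ))))

end Vale.Agent.Results.P291.HikitaConjecture
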