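import Vale.Agent.P291.H415.N7.Final
import Vale.Agent.P291.R10Blk

/-!
# The Hilbert series of the fixed locus is the number of points of the quiver variety
-/

namespace Vale.Agent.Results.P291.PointCount

open Vale.Agent.P291.Hik

/-- Let `Q` be any finite quiver with any gauge and framing dimensions, `F` trivial, and let `ν` be
regular. Then `ℂ[Y^ν]` is the direct sum of its graded pieces `gr ν d`, `gr ν d = 0` for
`d > dim X`, and for every finite field `k` with `q` elements and every character `ν'` that is
regular over `k`, the quiver variety of `ν'` has `∑_d dim (gr ν d) q^(dim X - d)` points over `k`: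
this sum times the order of `G(k)` is the number of `ν'`-semistable points of `μ⁻¹(0)(k)`. -/
theorem result {I E : Type} [Fintype I] [DecidableEq I] [Fintype E] (Q : QData I E) (ν : I → ℤ)
    (hν : Q.RegularOver ℂ ν) :
    DirectSum.IsInternal (Q.gr ν) ∧ (∀ d, Q.dimX < d → Q.gr ν d = ⊥) ∧
    ∀ (k : Type) [Field k] [Finite k] (ν' : I → ℤ), Q.RegularOver k ν' →
      Nat.card {z : Q.Pt k // (∀ ξ, z.mu ξ = 0) ∧ z.SS ν'} =
        (∏ i : I, Nat.card (Matrix.GeneralLinearGroup (Fin (Q.v i)) k)) *
          ∑ d ∈ Finset.range (Q.dimX + 1),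
            Module.finrank ℂ (Q.gr ν d) * Nat.card k ^ (Q.dimX - d) := by
  have h := Vale.Agent.P291.II_le_JN (core Q (fun _ => (0 : ℂ))) ν
    (reg_core (fun _ => (0 : ℂ)) ν hν)
  exact ⟨Vale.Agent.P291.N7.isInternal Q h, Vale.Agent.P291.N7.gr_vanish Q h,
    fun k _ _ ν' hk => Vale.Agent.P291.N7.point_count Q h k ν' hk⟩

end Vale.Agent.Results.P291.PointCount
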