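import Vale.Agent.P291.Quiver.Defs
import Vale.Agent.P291.H808.Bridge
import Vale.Agent.P291.H808.TwoOneMain

/-!
# Hikita's statement for all quivers with two vertices and gauge dimensions `(2, 1)`
-/

namespace Vale.Agent.Results.P291.TwoOne

open Vale.Agent.P291.Quiver

/-- Let `Q` be any quiver with two vertices (any numbers of loops at either vertex and of arrows
between them in either direction), gauge dimensions `(2, 1)` and arbitrary framing dimensions, and
let `ν` be generic. Then the map `phiC` from `R = H^*_{G × F}(pt)` to the coordinate ring of the
scheme-theoretic fixed locus is surjective, and its kernel consists of the classes that restrict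
to zero at all `F`-fixed points of the Nakajima quiver variety. -/
theorem result {E : Type} [Fintype E] [DecidableEq E] (Q : QData (Fin 2) E)
    (hv : Q.v = ![2, 1]) (ν : Fin 2 → ℤ) (hν : Q.Generic ν) :
    Function.Surjective (Q.phiC ν) ∧ RingHom.ker (Q.phiC ν) = Q.kerH ν := by
  obtain ⟨s, t, v, w⟩ := Q
  obtain rfl : v = ![2, 1] := hv
  exact Vale.Agent.P291.H808.hikita_of_old _ ν
    (Vale.Agent.P291.H808.QData.main21 s t w hν)

end Vale.Agent.Results.P291.TwoOne
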